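import Vale.Agent.P112.H540.Gain.Tree
import Vale.Agent.P112.G.R2

/-!
# P112, `[GAIN]`: `stGain_of : StTree κ → StAna → R2.StGain κ` (helper540)
-/

open MeasureTheory Set
open scoped ENNReal

set_option linter.dupNamespace false

noncomputable section

namespace Vale.Agent.P112.H540.Gain

open T F30 H8 H646 H646.Gain

variable {M : ℕ}

/-- The `Q`-separation in difference form. -/
theorem sepTrees_of {F : R2.Tr} {u : ℝ × ℝ → ℝ} {E0 : Set (ℝ × ℝ)} {n ν : ℕ} {A w Q : ℝ}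
    (hb : ∃ ρ : ℝ, ∀ z ∈ E0, |z.1| ≤ ρ ∧ |z.2| ≤ ρ) (hQ : 0 ≤ Q) (hQw : Q ≤ w)
    (hF : F.Ok u (Pd u E0 4 n ν) A w) (hS : F.SepP Q (4 * w)) : SepTrees u A Q n F.s F.E where
  meas := hF.meas
  bdd := by
    obtain ⟨ρ, hρ⟩ := hb
    exact ⟨ρ, fun i j z hz => hρ z (hF.sub i j hz).1⟩
  lt := fun i j hj => by
    refine Set.eq_empty_of_forall_notMem fun z hz => ?_
    have := (hF.sub i j hz).2.1
    omega
  slope := hF.slope
  conv := hF.conv
  uniq := hF.uniq
  sep := fun i i' hi j j' hjj z hz z' hz' hx ho => by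
    refine hS i i' j j' hi hjj z hz z' hz' hx ?_
    have h1 := hF.line i' j' z' hz'
    have e : F.off i' z = ((z.2 - F.s i' * z.1) - (z'.2 - F.s i' * z'.1)) + F.off i' z' := by
      unfold R2.Tr.off
      ring
    rw [e]
    refine (abs_add_le _ _).trans ?_
    linarith

theorem sum_tg (κ : Ker M) (F : R2.Tr) (u g : ℝ × ℝ → ℝ) (n : ℕ) (z : ℝ × ℝ) :
    ∑ i, tg κ u g n F.s F.E i (z.1, z.2 - F.s i * z.1) = ((F.sum κ u g n z : ℝ) : ℂ) := by
  unfold R2.Tr.sum tg
  rw [Complex.ofReal_sum]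
  refine Finset.sum_congr rfl fun i _ => ?_
  simp

/-- **[GAIN]** from the tree side and the analytic side. -/
theorem stGain_of (κ : Ker M) (hT : StTree κ) (hA : StAna) : R2.StGain κ := by
  obtain ⟨C0, c0, hC0, HT⟩ := hT
  intro b
  obtain ⟨A0, HA⟩ := hA (2 * b * c0 + 1 + b)
  set c : ℕ := 2 * b * c0 + 1 + b with hc
  set c2 : ℕ := A0 + 1 with hc2
  refine ⟨c2, by omega, fun c3 B => ?_⟩
  obtain ⟨C1, hC1, HB⟩ := HA B
  refine ⟨c2, C0 + C1, by linarith, ?_⟩
  intro u hu n ν f g hf hg hf1 hg1 _ _ _ hfp hgp L hL hCL hν hlip F A w hA1 hAL hQw hw hF hS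
  have hL1 : 1 ≤ L := by linarith
  have hL0 : 0 < L := by linarith
  obtain ⟨H0, θ, H1, r, m, a1, a2, a3, a4, a5, a6, a7, a8, HC⟩ := HB L (by linarith)
  set Q : ℝ := Real.exp (L ^ c2) with hQ
  have hexp : Real.exp (L ^ A0) ≤ Q := by
    rw [hQ]
    apply Real.exp_le_exp.2
    exact pow_le_pow_right₀ hL1 (by omega)
  -- the polylogarithmic factor
  have h2ν : (2 : ℝ) ^ ν ≤ L ^ b := by
    have h1 : (2 : ℝ) ^ ν = Real.exp (ν * Real.log 2) := by
      rw [mul_comm, Real.exp_mul, Real.exp_log (by norm_num), Real.rpow_natCast]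
    have h2 : L ^ b = Real.exp (b * Real.log L) := by
      rw [mul_comm, Real.exp_mul, Real.exp_log hL0, Real.rpow_natCast]
    rw [h1, h2]
    apply Real.exp_le_exp.2
    have h3 : Real.log 2 ≤ 1 := by
      have := Real.log_two_lt_d9
      linarith
    have h4 : 0 ≤ Real.log 2 := Real.log_nonneg (by norm_num)
    have h5 : (0 : ℝ) ≤ ν := Nat.cast_nonneg ν
    nlinarith
  have hν1 : (1 : ℝ) ≤ 2 ^ ν := one_le_pow₀ (by norm_num)
  set a : ℝ := A * 2 ^ ν with ha
  have ha1 : 1 ≤ a := by nlinarith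
  have haL : a ≤ L ^ (2 * b) := by
    have : L ^ (2 * b) = L ^ b * L ^ b := by rw [two_mul, pow_add]
    rw [this, ha]
    exact mul_le_mul hAL h2ν (by linarith) (by positivity)
  set R : ℝ := C0 * a ^ c0 with hR
  have hR1 : 1 ≤ R := by
    have : 1 ≤ a ^ c0 := one_le_pow₀ ha1
    nlinarith
  have hRc : R ≤ L ^ (2 * b * c0 + 1) := by
    have h1 : a ^ c0 ≤ L ^ (2 * b * c0) := by
      rw [pow_mul]
      exact pow_le_pow_left₀ (by linarith) haL c0
    rw [pow_succ, mul_comm (L ^ (2 * b * c0)), hR]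
    exact mul_le_mul (by linarith) h1 (by positivity) (by linarith)
  have hRL : R ≤ L ^ c := hRc.trans (pow_le_pow_right₀ hL1 (by omega))
  have hH0 : 0 < H0 := by linarith
  have hprod : R * H0 * H1 ≤ Q := by
    refine le_trans ?_ (a8.trans hexp)
    have hH1 : 0 < H1 := by linarith
    gcongr
  have hlip' : R * H0 * H1 * Real.exp (-L ^ c2) ≤ 1 := by
    have h1 : Q * Real.exp (-L ^ c2) = 1 := by
      rw [hQ, ← Real.exp_add, add_neg_cancel, Real.exp_zero]
    rw [← h1]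
    have := Real.exp_pos (-L ^ c2)
    gcongr
  have hsup := bdd_supp hg
  have hQ0 : 0 ≤ Q := (Real.exp_pos _).le
  have hsep := sepTrees_of hsup hQ0 hQw hF hS
  have hAH : A ≤ H0 := hAL.trans ((pow_le_pow_right₀ hL1 (by omega)).trans a2)
  obtain ⟨N0, K, iK, X, hout⟩ := HT u hu n ν g hg hg1 (Real.exp (-L ^ c2)) A Q H0 θ H1 r m
    hlip hA1 a6 hprod a1 hAH a3 a4 (by linarith) hlip' a7 F.ι F.s F.E hsep hF.sub
  -- the volumes
  have hfin : ∀ {g : ℝ × ℝ → ℝ}, Nice g → volume {z | g z ≠ 0} ≠ ⊤ := by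
    intro g hg
    obtain ⟨ρ, hρ⟩ := bdd_supp hg
    have h1 : {z | g z ≠ 0} ⊆ Icc (-ρ) ρ ×ˢ Icc (-ρ) ρ := by
      intro z hz
      have := hρ z hz
      exact ⟨abs_le.1 this.1, abs_le.1 this.2⟩
    refine ne_top_of_le_ne_top ?_ (measure_mono h1)
    exact (isCompact_Icc.prod isCompact_Icc).measure_lt_top.ne
  set V : ℝ := (volume {z | g z ≠ 0}).toReal with hV
  set U : ℝ := (volume {z | f z ≠ 0}).toReal with hU
  have hVp : 0 < V := ENNReal.toReal_pos hgp.ne' (hfin hg)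
  have hUp : 0 < U := ENNReal.toReal_pos hfp.ne' (hfin hf)
  have hVe : volume {z | g z ≠ 0} = ENNReal.ofReal V := (ENNReal.ofReal_toReal (hfin hg)).symm
  have hUe : volume {z | f z ≠ 0} = ENNReal.ofReal U := (ENNReal.ofReal_toReal (hfin hf)).symm
  have hLe : Real.exp (-L) * V = U := by
    rw [hL, Real.exp_neg, Real.exp_log (by positivity)]
    field_simp
  have hLe2 : Real.exp (-L / 2) * V = √U * √V := by
    have h1 : Real.exp (-L / 2) = √(Real.exp (-L)) := by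
      rw [Real.sqrt_eq_rpow, ← Real.exp_mul]
      congr 1
      ring
    have h2 : √U = √(Real.exp (-L)) * √V := by
      rw [← hLe, Real.sqrt_mul (Real.exp_pos _).le]
    rw [h1, h2, mul_assoc, Real.mul_self_sqrt hVp.le]
  rw [hVe] at hout
  have hmain := HC F.ι F.s (tg κ u g n F.s F.E) V R (Q / 2 ^ (r + 4)) ((R / 2 ^ r) ^ 2) N0 K X
    hVp hR1 hRL (by gcongr) rfl hout (fun z => ((f z : ℝ) : ℂ))
    (Complex.measurable_ofReal.comp hf.meas)
    (fun z => by
      rw [Complex.norm_real, Real.norm_eq_abs]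
      exact hf1 z)
    (by
      rw [hLe, ← hUe]
      congr 1
      ext z
      simp)
  have hint : ‖∫ z : ℝ × ℝ, ((f z : ℝ) : ℂ) *
      ∑ i, tg κ u g n F.s F.E i (z.1, z.2 - F.s i * z.1)‖ =
      |∫ ζ, f ζ * F.sum κ u g n ζ| := by
    simp_rw [sum_tg, ← Complex.ofReal_mul]
    rw [integral_complex_ofReal, Complex.norm_real, Real.norm_eq_abs]
  rw [hint] at hmain
  refine hmain.trans ?_
  rw [mul_assoc C1, hLe2, mul_assoc]
  have : 0 ≤ √U * √V := by positivity
  nlinarith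

end Vale.Agent.P112.H540.Gain
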