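import Vale.Agent.P112.H646.GainDefs
import Vale.Agent.P112.T.Basic

/-!
# P112, `[GAIN]`: assembly of the tree side (helper540)

`stTree_of : StBox0 κ → StOsc κ → StSq → StArcs → StLq κ → StPrim κ → StTree κ`.
-/

open MeasureTheory Set
open scoped ENNReal

set_option linter.dupNamespace false

noncomputable section

namespace Vale.Agent.P112.H540.Gain

open T F30 H8 H646 H646.Gain

variable {M : ℕ}

theorem rc_mono {C C' a : ℝ} {c c' : ℕ} (hC : 0 ≤ C) (hCC : C ≤ C') (ha : 1 ≤ a) (hc : c ≤ c') :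
    C * a ^ c ≤ C' * a ^ c' := by
  have h1 : a ^ c ≤ a ^ c' := pow_le_pow_right₀ ha hc
  have h2 : 0 ≤ a ^ c := by positivity
  have h3 : 0 ≤ a ^ c' := by positivity
  nlinarith

theorem arc_mono {R R' m : ℝ} (hR : 0 < R) (hRR : R ≤ R') (hm : 0 ≤ m) :
    R * (2 : ℝ) ^ (-(m / R)) ≤ R' * (2 : ℝ) ^ (-(m / R')) := by
  have h1 : (2 : ℝ) ^ (-(m / R)) ≤ (2 : ℝ) ^ (-(m / R')) := by
    apply Real.rpow_le_rpow_of_exponent_le (by norm_num)
    have : m / R' ≤ m / R := by gcongr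
    linarith
  have h2 : 0 ≤ (2 : ℝ) ^ (-(m / R)) := by positivity
  have h3 : 0 < R' := lt_of_lt_of_le hR hRR
  nlinarith

theorem meas_supp {g : ℝ × ℝ → ℝ} (hg : Nice g) : MeasurableSet {z | g z ≠ 0} :=
  hg.meas (MeasurableSet.compl (MeasurableSet.singleton 0))

theorem bdd_supp {g : ℝ × ℝ → ℝ} (hg : Nice g) :
    ∃ ρ : ℝ, ∀ z ∈ {z | g z ≠ 0}, |z.1| ≤ ρ ∧ |z.2| ≤ ρ := by
  obtain ⟨r, hr⟩ := hg.supp
  refine ⟨r, fun z hz => ?_⟩
  constructor
  · by_contra h
    exact hz (hr z (Or.inl (not_le.1 h).le))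
  · by_contra h
    exact hz (hr z (Or.inr (not_le.1 h).le))

theorem tg_meas (κ : Ker M) {u g : ℝ × ℝ → ℝ} (hu : Field u) (hg : Nice g) {n : ℕ} {ι : Type}
    {s : ι → ℝ} {E : ι → ℕ → Set (ℝ × ℝ)} (hE : ∀ i j, MeasurableSet (E i j)) (i : ι) :
    Measurable (tg κ u g n s E i) := by
  unfold tg
  refine Complex.measurable_ofReal.comp ?_
  exact (κ.FS_nice hu hg (hE i) n).meas.comp (by fun_prop)

theorem tg_bdd (κ : Ker M) {u g : ℝ × ℝ → ℝ} (hu : Field u) (hg : Nice g) {n : ℕ} {ι : Type}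
    [Fintype ι] {s : ι → ℝ} {E : ι → ℕ → Set (ℝ × ℝ)} (hE : ∀ i j, MeasurableSet (E i j)) :
    ∃ B : ℝ, ∀ i z, ‖tg κ u g n s E i z‖ ≤ B := by
  have h1 : ∀ i, ∃ B, ∀ z, |κ.FS u g (E i) n z| ≤ B := fun i => (κ.FS_nice hu hg (hE i) n).bdd
  choose B hB using h1
  refine ⟨∑ i, |B i|, fun i z => ?_⟩
  unfold tg
  rw [Complex.norm_real, Real.norm_eq_abs]
  refine ((hB i _).trans (le_abs_self _)).trans ?_
  exact Finset.single_le_sum (f := fun i => |B i|) (fun i _ => abs_nonneg _) (Finset.mem_univ i)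

theorem tg_supp {u g : ℝ × ℝ → ℝ} {n ν : ℕ} {ι : Type} {E : ι → ℕ → Set (ℝ × ℝ)}
    (h : ∀ i j, E i j ⊆ Pd u {z | g z ≠ 0} 4 n ν j) (i : ι) (j : ℕ) :
    E i j ⊆ {z | g z ≠ 0} := fun _ hz => (h i j hz).1

/-- **The tree side.** -/
theorem stTree_of (κ : Ker M) (h1 : StBox0 κ) (h2 : StOsc κ) (h3 : StSq) (h4 : StArcs)
    (h5 : StLq κ) (h6 : StPrim κ) : StTree κ := by
  obtain ⟨C1, hC1, H1⟩ := h1
  obtain ⟨C2, c2, hC2, H2⟩ := h2
  obtain ⟨C3, c3, hC3, H3⟩ := h3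
  obtain ⟨C4, c4, hC4, H4⟩ := h4
  obtain ⟨C5, c5, hC5, H5⟩ := h5
  obtain ⟨C6, c6, hC6, H6⟩ := h6
  set C : ℝ := C1 + C2 + C3 + C4 + C5 + C6 with hC
  set c : ℕ := c2 + c3 + c4 + c5 + c6 with hc
  refine ⟨C, c, by linarith, ?_⟩
  intro u hu n ν g hg hg1 ε S Q H0 θ H1' r m hε hS hH1 hQ hH0 hSH hθ hθ1 hCr hlip hm ι _ s E hE hP
  have hE' := hE.meas
  have hsup := tg_supp hP
  have ha : (1 : ℝ) ≤ S * 2 ^ ν := by
    have : (1 : ℝ) ≤ 2 ^ ν := one_le_pow₀ (by norm_num)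
    nlinarith
  set a : ℝ := S * 2 ^ ν with hadef
  have hSa : S ≤ a := by
    have : (1 : ℝ) ≤ 2 ^ ν := one_le_pow₀ (by norm_num)
    nlinarith
  have hac : ∀ k : ℕ, (1 : ℝ) ≤ a ^ k := fun k => one_le_pow₀ ha
  have hH0' : (0 : ℝ) < H0 := by linarith
  have q1 : C1 * H0 ≤ Q := by
    refine le_trans ?_ hQ
    have : C1 * (1 : ℝ) ≤ C * a ^ c := by
      have := rc_mono (c := 0) (c' := c) (show 0 ≤ C1 by linarith) (show C1 ≤ C by linarith) ha
        (Nat.zero_le _)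
      simpa using this
    calc C1 * H0 = C1 * 1 * H0 * 1 := by ring
      _ ≤ C * a ^ c * H0 * H1' := by gcongr
  obtain ⟨N0, K, iK, X, hX, hqu⟩ := H1 u hu n g hg hg1 S Q H0 θ r hS q1 hH0 hSH hθ hθ1
    (by linarith) ι s E hE
  refine ⟨N0, K, iK, X, ?_⟩
  have hgen : ∀ (C' : ℝ) (c' : ℕ), 1 ≤ C' → C' ≤ C → c' ≤ c → C' * a ^ c' ≤ C * a ^ c :=
    fun C' c' h1 h2 h3 => rc_mono (by linarith) h2 ha h3
  have ho := H2 u hu n g hg hg1 S Q H0 θ r hS hH0 hSH hθ hθ1 (by linarith) ι s E hE hsup N0 K X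
    hX hqu
  have hsq := H3 u hu n ν {z | g z ≠ 0} (meas_supp hg) (bdd_supp hg) ε S Q H0 θ r hε hS (by
      refine le_trans ?_ hQ
      have := hgen C3 c3 hC3 (by linarith) (by omega)
      calc C3 * a ^ c3 * H0 = C3 * a ^ c3 * H0 * 1 := by ring
        _ ≤ C * a ^ c * H0 * H1' := by gcongr) hH0 hSH hθ hθ1 (by linarith) (by
      refine le_trans ?_ hlip
      have h7 := hgen C3 c3 hC3 (by linarith) (by omega)
      have h8 : 0 ≤ ε := by
        have := hε 0 0 1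
        have h9 := abs_nonneg (u (0, 0) - u (0, 1))
        simp at this
        linarith
      calc C3 * a ^ c3 * H0 * ε = C3 * a ^ c3 * H0 * 1 * ε := by ring
        _ ≤ C * a ^ c * H0 * H1' * ε := by gcongr) ι s E hE hP (tg κ u g n s E) N0 K X hX
  have harc := H4 u hu n ν {z | g z ≠ 0} (meas_supp hg) (bdd_supp hg) ε S Q H0 θ H1' r m hε hS hH1
    (by
      refine le_trans ?_ hQ
      have := hgen C4 c4 hC4 (by linarith) (by omega)
      gcongr) hH0 hSH hθ hθ1 (by linarith) (by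
      refine le_trans ?_ hlip
      have h7 := hgen C4 c4 hC4 (by linarith) (by omega)
      have h8 : 0 ≤ ε := by
        have := hε 0 0 1
        have h9 := abs_nonneg (u (0, 0) - u (0, 1))
        simp at this
        linarith
      gcongr) hm ι s E hE hP (tg κ u g n s E) N0 K X hX
  have hlq := H5 u hu n g hg hg1 S Q hS ι s E hE hsup
  obtain ⟨g1, p1, p2, p3, p4⟩ := H6 u hu n g hg hg1 S Q hS ι s E hE hsup
  exact
    { s_eq := hX.s_eq
      disj := hX.disj
      lev := hX.lev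
      height := hX.height
      out := hX.out
      occ := hX.occ
      sep := hX.sep
      num := hX.num
      osc := by
        obtain ⟨gs, o1, o2, o3⟩ := ho
        refine ⟨gs, o1, o2, o3.trans ?_⟩
        gcongr ?_ * _
        apply ENNReal.ofReal_le_ofReal
        have h7 : C2 * S ^ c2 ≤ C * a ^ c := by
          refine le_trans ?_ (hgen C2 c2 hC2 (by linarith) (by omega))
          gcongr
        gcongr
      sq := fun b => (hsq b).trans (by
        gcongr ?_ * _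
        exact ENNReal.ofReal_le_ofReal (hgen C3 c3 hC3 (by linarith) (by omega)))
      arc := fun b => by
        obtain ⟨D, d1, d2, d3⟩ := harc b
        refine ⟨D, d1, d2.trans ?_, d3⟩
        gcongr ?_ * _
        apply ENNReal.ofReal_le_ofReal
        exact arc_mono (by have := hac c4; positivity) (hgen C4 c4 hC4 (by linarith) (by omega))
          (Nat.cast_nonneg m)
      mG := fun i => tg_meas κ hu hg hE' i
      bG := tg_bdd κ hu hg hE'
      lq := fun q hq => (hlq q hq).trans (by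
        gcongr ?_ * _
        apply ENNReal.ofReal_le_ofReal
        have h7 : C5 * S ^ c5 ≤ C * a ^ c := by
          refine le_trans ?_ (hgen C5 c5 hC5 (by linarith) (by omega))
          gcongr
        have h8 : 0 ≤ C5 * S ^ c5 * q ^ 3 := by positivity
        gcongr)
      prim := ⟨g1, p1, p2, p3, p4.trans (by
        gcongr ?_ * _
        apply ENNReal.ofReal_le_ofReal
        refine le_trans ?_ (hgen C6 c6 hC6 (by linarith) (by omega))
        gcongr)⟩ }

end Vale.Agent.P112.H540.Gain
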